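import Vale.Agent.P181.GN.H312.Q4a

set_option autoImplicit false

/-!
# P181: the number of columns used by a symmetric highest weight polynomial

A symmetric highest weight polynomial of weight `mu` with a monomial in which all the `N` columns
occur has `2 N ≤ 2 mu_0 + mu_1 + mu_2 + ⋯`.
-/

open MvPolynomial

namespace Vale.Agent.P181.H168

open Vale.Agent.P181.T4
open Vale.Agent.P181.GN.H312 (coeff_rowOp)

variable {n N : ℕ}

/-- The size of a column. -/
def cs (v : Fin (n + 1) × Fin N →₀ ℕ) (j : Fin N) : ℕ := ∑ i, v (i, j)

/-- The number of the columns of size one whose cell is not in the row `0`. -/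
def bad (v : Fin (n + 1) × Fin N →₀ ℕ) : ℕ :=
  (Finset.univ.filter fun j => cs v j = 1 ∧ v (0, j) = 0).card

lemma one_col {v : Fin (n + 1) × Fin N →₀ ℕ} {j : Fin N} (h : cs v j = 1) {i₁ : Fin (n + 1)}
    (h1 : v (i₁, j) ≠ 0) (i : Fin (n + 1)) : v (i, j) = if i = i₁ then 1 else 0 := by
  have h2 : v (i₁, j) + ∑ i ∈ Finset.univ.erase i₁, v (i, j) = 1 :=
    (Finset.add_sum_erase _ (fun i => v (i, j)) (Finset.mem_univ i₁)).trans h
  have h3 : ∑ i ∈ Finset.univ.erase i₁, v (i, j) = 0 := by omega
  have h4 : v (i₁, j) = 1 := by omega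
  split_ifs with hi
  · rw [hi, h4]
  · exact (Finset.sum_eq_zero_iff.1 h3) i (Finset.mem_erase.2 ⟨hi, Finset.mem_univ _⟩)

/-- The exchange of the cell `(s, j)` for the cell `(r, j)`. -/
noncomputable def mv (u : Fin (n + 1) × Fin N →₀ ℕ) (s r : Fin (n + 1)) (j : Fin N) :
    Fin (n + 1) × Fin N →₀ ℕ := u - Finsupp.single (s, j) 1 + Finsupp.single (r, j) 1

lemma mv_other (u : Fin (n + 1) × Fin N →₀ ℕ) (s r : Fin (n + 1)) (j : Fin N) (i : Fin (n + 1))
    {j' : Fin N} (h : j' ≠ j) : mv u s r j (i, j') = u (i, j') := by
  have e1 : (i, j') ≠ (s, j) := fun e => h (congrArg Prod.snd e)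
  have e2 : (i, j') ≠ (r, j) := fun e => h (congrArg Prod.snd e)
  simp only [mv, Finsupp.add_apply, Finsupp.tsub_apply]
  rw [Finsupp.single_eq_of_ne e1, Finsupp.single_eq_of_ne e2]
  omega

lemma mv_same (u : Fin (n + 1) × Fin N →₀ ℕ) {s r : Fin (n + 1)} (j : Fin N) (i : Fin (n + 1)) :
    mv u s r j (i, j) = u (i, j) - (if i = s then 1 else 0) + (if i = r then 1 else 0) := by
  simp only [mv, Finsupp.add_apply, Finsupp.tsub_apply]
  congr 1
  · congr 1
    split_ifs with h
    · rw [h, Finsupp.single_eq_same]
    · exact Finsupp.single_eq_of_ne fun e => h (congrArg Prod.fst e)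
  · split_ifs with h
    · rw [h, Finsupp.single_eq_same]
    · exact Finsupp.single_eq_of_ne fun e => h (congrArg Prod.fst e)

lemma cs_mv {u : Fin (n + 1) × Fin N →₀ ℕ} {s r : Fin (n + 1)} {j : Fin N} (h : u (s, j) ≠ 0)
    (j' : Fin N) : cs (mv u s r j) j' = cs u j' := by
  by_cases hj : j' = j
  · subst hj
    have h1 : cs (mv u s r j') j' + 1 = cs u j' + 1 := by
      have h2 : ∀ i, mv u s r j' (i, j') + (if i = s then 1 else 0) =
          u (i, j') + (if i = r then 1 else 0) := by
        intro i
        rw [mv_same]
        by_cases hi : i = s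
        · subst hi
          simp only [if_true]
          omega
        · rw [if_neg hi]
          omega
      have h3 : ∑ i, (mv u s r j' (i, j') + (if i = s then 1 else 0)) =
          ∑ i, (u (i, j') + (if i = r then 1 else 0)) := Finset.sum_congr rfl fun i _ => h2 i
      rw [Finset.sum_add_distrib, Finset.sum_add_distrib] at h3
      simpa [cs] using h3
    omega
  · exact Finset.sum_congr rfl fun i _ => mv_other u s r j i hj

lemma bound_zero {v : Fin (n + 1) × Fin N →₀ ℕ} {mu : Fin (n + 1) → ℕ}
    (hw : ∀ i, ∑ j, v (i, j) = mu i) (hb : bad v = 0) (hv : ∀ j, 1 ≤ cs v j) :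
    2 * N ≤ 2 * mu 0 + ∑ i : Fin n, mu i.succ := by
  have h1 : ∀ j, 2 ≤ 2 * v (0, j) + ∑ i : Fin n, v (i.succ, j) := by
    intro j
    have h2 : cs v j = v (0, j) + ∑ i : Fin n, v (i.succ, j) := by
      rw [cs, Fin.sum_univ_succ]
    have h3 := hv j
    by_cases h4 : cs v j = 1
    · have h5 : v (0, j) ≠ 0 := by
        intro h0
        have h6 : j ∈ Finset.univ.filter fun j => cs v j = 1 ∧ v (0, j) = 0 := by
          rw [Finset.mem_filter]
          exact ⟨Finset.mem_univ _, h4, h0⟩
        rw [bad, Finset.card_eq_zero] at hb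
        rw [hb] at h6
        exact absurd h6 (Finset.notMem_empty _)
      omega
    · omega
  have h2 : ∑ _j : Fin N, 2 ≤ ∑ j : Fin N, (2 * v (0, j) + ∑ i : Fin n, v (i.succ, j)) :=
    Finset.sum_le_sum fun j _ => h1 j
  rw [Finset.sum_add_distrib, ← Finset.mul_sum, hw 0, Finset.sum_comm,
    Finset.sum_congr rfl fun i _ => hw (Fin.succ i), Finset.sum_const, Finset.card_univ,
    Fintype.card_fin, smul_eq_mul] at h2
  omega

/-- Symmetry: two columns of size one are exchanged. -/
lemma coeff_swap {f : MvPolynomial (Fin (n + 1) × Fin N) ℂ}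
    (hs : ∀ e : Equiv.Perm (Fin N), rename (fun p : Fin (n + 1) × Fin N => (p.1, e p.2)) f = f)
    {v u : Fin (n + 1) × Fin N →₀ ℕ} (e : Equiv.Perm (Fin N))
    (h : ∀ i j, u (i, e j) = v (i, j)) : coeff u f = coeff v f := by
  have hinj : Function.Injective (fun p : Fin (n + 1) × Fin N => (p.1, e p.2)) := by
    rintro ⟨i, j⟩ ⟨i', j'⟩ hh
    simp only [Prod.mk.injEq] at hh
    exact Prod.ext hh.1 (e.injective hh.2)
  have h1 : u = Finsupp.mapDomain (fun p : Fin (n + 1) × Fin N => (p.1, e p.2)) v := by
    ext ⟨i, j⟩
    obtain ⟨j', rfl⟩ := e.surjective j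
    have h2 := Finsupp.mapDomain_apply hinj v (i, j')
    simp only at h2
    rw [h2]
    exact h i j'
  rw [h1]
  conv_lhs => rw [← hs e]
  exact coeff_rename_mapDomain _ hinj f v

theorem bound {f : MvPolynomial (Fin (n + 1) × Fin N) ℂ} {mu : Fin (n + 1) → ℕ}
    (hf : f ∈ HW (n + 1) (Fin N) mu)
    (hs : ∀ e : Equiv.Perm (Fin N), rename (fun p : Fin (n + 1) × Fin N => (p.1, e p.2)) f = f) :
    ∀ (k : ℕ) (v : Fin (n + 1) × Fin N →₀ ℕ), bad v = k → coeff v f ≠ 0 →
      (∀ j, 1 ≤ cs v j) → 2 * N ≤ 2 * mu 0 + ∑ i : Fin n, mu i.succ := by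
  classical
  intro k
  induction k with
  | zero => exact fun v hb hv hu => bound_zero (hf.1 v hv) hb hu
  | succ k ih =>
    intro v hb hv hu
    obtain ⟨c, hc⟩ : ∃ c, c ∈ Finset.univ.filter fun j => cs v j = 1 ∧ v (0, j) = 0 := by
      apply Finset.card_pos.1
      change 0 < bad v
      omega
    have hc1 : cs v c = 1 := (Finset.mem_filter.1 hc).2.1
    have hc0 : v (0, c) = 0 := (Finset.mem_filter.1 hc).2.2
    obtain ⟨i, hi⟩ : ∃ i : Fin n, v (i.succ, c) ≠ 0 := by
      by_contra hcon
      push Not at hcon
      rw [cs, Fin.sum_univ_succ, hc0, Finset.sum_eq_zero fun i _ => hcon i] at hc1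
      omega
    have hne : (0 : Fin (n + 1)) ≠ i.succ := (Fin.succ_ne_zero i).symm
    have hcol := one_col hc1 hi
    set u := mv v i.succ 0 c with hudef
    have hu0 : u (0, c) ≠ 0 := by
      rw [hudef, mv_same, if_neg hne, if_pos rfl]
      omega
    have hui : u (i.succ, c) = 0 := by
      rw [hudef, mv_same, if_pos rfl, if_neg hne.symm, hcol, if_pos rfl]
    have huo : ∀ i' j', j' ≠ c → u (i', j') = v (i', j') := fun i' j' h =>
      mv_other v i.succ 0 c i' h
    have hback : u - Finsupp.single ((0 : Fin (n + 1)), c) 1 + Finsupp.single (i.succ, c) 1 =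
        v := by
      ext ⟨i', j'⟩
      change mv u 0 i.succ c (i', j') = v (i', j')
      by_cases hj : j' = c
      · subst hj
        rw [mv_same, hudef, mv_same, hcol]
        by_cases h1 : i' = 0
        · subst h1
          simp [hne]
        · by_cases h2 : i' = i.succ
          · subst h2
            simp [hne.symm]
          · simp [h1, h2]
      · rw [mv_other _ _ _ _ _ hj, huo _ _ hj]
    by_cases hex : ∃ j, j ≠ c ∧ u (0, j) ≠ 0 ∧ 2 ≤ cs v j ∧
        coeff (u - Finsupp.single ((0 : Fin (n + 1)), j) 1 + Finsupp.single (i.succ, j) 1) f ≠ 0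
    · obtain ⟨j, hjc, hj0, hj2, hj⟩ := hex
      have hcs : ∀ j', cs (mv u 0 i.succ j) j' = cs v j' := by
        intro j'
        rw [cs_mv hj0, hudef, cs_mv hi]
      refine ih (mv u 0 i.succ j) ?_ hj fun j' => ?_
      · have h1 : (Finset.univ.filter fun j' => cs (mv u 0 i.succ j) j' = 1 ∧
            mv u 0 i.succ j (0, j') = 0) =
            (Finset.univ.filter fun j => cs v j = 1 ∧ v (0, j) = 0).erase c := by
          ext j'
          simp only [Finset.mem_filter, Finset.mem_univ, true_and, Finset.mem_erase]
          rw [hcs j']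
          by_cases h2 : j' = c
          · subst h2
            rw [mv_other _ _ _ _ _ hjc.symm]
            constructor
            · rintro ⟨_, h3⟩
              exact absurd h3 hu0
            · rintro ⟨h3, _⟩
              exact absurd rfl h3
          · by_cases h3 : j' = j
            · subst h3
              constructor
              · rintro ⟨h4, _⟩
                omega
              · rintro ⟨_, h4, _⟩
                omega
            · rw [mv_other _ _ _ _ _ h3, huo _ _ h2]
              constructor
              · rintro ⟨h4, h5⟩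
                exact ⟨h2, h4, h5⟩
              · rintro ⟨_, h4, h5⟩
                exact ⟨h4, h5⟩
        have h2 : bad (mv u 0 i.succ j) = bad v - 1 := by
          rw [bad, h1, Finset.card_erase_of_mem hc]
          rfl
        omega
      · rw [hcs]
        exact hu j'
    · exfalso
      push Not at hex
      have h0 : coeff u (rowOp 0 i.succ f) = 0 := by
        rw [hf.2 0 i.succ (Fin.succ_pos i), coeff_zero]
      rw [coeff_rowOp] at h0
      have hterm : ∀ j, (if u (0, j) ≠ 0 then
          coeff (u - Finsupp.single ((0 : Fin (n + 1)), j) 1 + Finsupp.single (i.succ, j) 1) f *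
            ((u - Finsupp.single ((0 : Fin (n + 1)), j) 1 : Fin (n + 1) × Fin N →₀ ℕ)
              (i.succ, j) + 1) else 0) =
          if j = c ∨ (cs v j = 1 ∧ v (0, j) ≠ 0) then coeff v f else 0 := by
        intro j
        have hfac : (u - Finsupp.single ((0 : Fin (n + 1)), j) 1 : Fin (n + 1) × Fin N →₀ ℕ)
            (i.succ, j) = u (i.succ, j) := by
          rw [Finsupp.tsub_apply, Finsupp.single_eq_of_ne]
          · rfl
          · exact fun e => hne (congrArg Prod.fst e).symm
        by_cases hjc : j = c
        · subst hjc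
          rw [if_pos hu0, if_pos (Or.inl rfl), hfac, hui, hback]
          simp
        · by_cases hj0 : v (0, j) = 0
          · rw [if_neg (by rw [huo _ _ hjc]; simpa using hj0), if_neg]
            rintro (h | ⟨_, h⟩)
            · exact hjc h
            · exact h hj0
          · have hj0' : u (0, j) ≠ 0 := by rw [huo _ _ hjc]; exact hj0
            rw [if_pos hj0', hfac, huo _ _ hjc]
            by_cases hj1 : cs v j = 1
            · have hcolj := one_col hj1 hj0
              rw [if_pos (Or.inr ⟨hj1, hj0⟩), hcolj, if_neg hne.symm]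
              have h5 : coeff (u - Finsupp.single ((0 : Fin (n + 1)), j) 1 +
                  Finsupp.single (i.succ, j) 1) f = coeff v f := by
                refine coeff_swap hs (Equiv.swap c j) fun i' j' => ?_
                change mv u 0 i.succ j (i', Equiv.swap c j j') = v (i', j')
                by_cases h6 : j' = c
                · subst h6
                  rw [Equiv.swap_apply_left, mv_same, huo _ _ hjc, hcolj, hcol]
                  by_cases h1 : i' = 0
                  · subst h1
                    simp [hne]
                  · by_cases h2 : i' = i.succ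
                    · subst h2
                      simp [hne.symm]
                    · simp [h1, h2]
                · by_cases h7 : j' = j
                  · subst h7
                    rw [Equiv.swap_apply_right, mv_other _ _ _ _ _ (Ne.symm hjc), hudef, mv_same,
                      hcol, hcolj]
                    by_cases h1 : i' = 0
                    · subst h1
                      simp [hne]
                    · by_cases h2 : i' = i.succ
                      · subst h2
                        simp [hne.symm]
                      · simp [h1, h2]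
                  · rw [Equiv.swap_apply_of_ne_of_ne h6 h7, mv_other _ _ _ _ _ h7, huo _ _ h6]
              rw [h5]
              simp
            · rw [if_neg, hex j hjc hj0' (by have := hu j; omega), zero_mul]
              rintro (h | ⟨h, _⟩)
              · exact hjc h
              · exact hj1 h
      rw [Finset.sum_congr rfl fun j _ => hterm j, Finset.sum_ite, Finset.sum_const_zero, add_zero,
        Finset.sum_const, nsmul_eq_mul] at h0
      rcases mul_eq_zero.1 h0 with h1 | h1
      · have h2 : (Finset.univ.filter fun j => j = c ∨ (cs v j = 1 ∧ v (0, j) ≠ 0)).card = 0 := by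
          exact_mod_cast h1
        rw [Finset.card_eq_zero] at h2
        have h3 : c ∈ Finset.univ.filter fun j => j = c ∨ (cs v j = 1 ∧ v (0, j) ≠ 0) := by
          rw [Finset.mem_filter]
          exact ⟨Finset.mem_univ _, Or.inl rfl⟩
        rw [h2] at h3
        exact absurd h3 (Finset.notMem_empty _)
      · exact hv h1

end Vale.Agent.P181.H168
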