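import Vale.Agent.P181.H168.Stab
import Vale.Agent.P181.H777.Tails
import Vale.Agent.P181.SZR1b.Defs
import Vale.Agent.P181.SZR1a.Main
import Vale.Agent.P181.SZR2a.LowerA

set_option autoImplicit false

/-!
# P181: Foulkes inequalities as soon as `2 λ_2 + λ_3 + λ_4 + ⋯ ≤ 2 c + 1`
-/

open MvPolynomial

namespace Vale.Agent.P181.H168

open Vale.Agent.P181.H280 (plethMult)
open Vale.Agent.P181.SZ (TI mem_TI tl R1a finiteDimensional_TI)
open Vale.Agent.P181.SZR2a (lowerA)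

/-- `2 α_1 + α_2 + α_3 + ⋯`. -/
def twice {m : ℕ} (α : Fin m → ℕ) : ℕ := ∑ i : Fin m, if (i : ℕ) = 0 then 2 * α i else α i

lemma twice_succ {m : ℕ} (α : Fin (m + 1) → ℕ) :
    twice α = 2 * α 0 + ∑ i : Fin m, α i.succ := by
  rw [twice, Fin.sum_univ_succ, if_pos (by rfl : ((0 : Fin (m + 1)) : ℕ) = 0)]
  congr 1

lemma tl_pad {m : ℕ} (N : ℕ) (α : Fin m → ℕ) : tl (H777.pad N α) = α := by
  funext i
  rfl

lemma TI_zero {m a b : ℕ} {mu : Fin m → ℕ} (h : a * b < ∑ i, mu i)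
    {f : MvPolynomial (Fin m × Fin a) ℂ} (hf : f ∈ TI a b m mu) : f = 0 := by
  obtain ⟨h0, _, h2, _⟩ := mem_TI.1 hf
  by_contra hne
  obtain ⟨v, hv⟩ := MvPolynomial.ne_zero_iff.1 hne
  have h3 : ∑ i, mu i = ∑ i, ∑ j, v (i, j) :=
    Finset.sum_congr rfl fun i _ => ((T4.mem_HW.1 h0).1 v hv i).symm
  have h4 : ∑ i, ∑ j, v (i, j) ≤ a * b := by
    rw [Finset.sum_comm]
    calc ∑ j, ∑ i, v (i, j) ≤ ∑ j : Fin a, b := Finset.sum_le_sum fun j _ => h2 v hv j
      _ = a * b := by simp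
  omega

/-- **Outer stability** for plethysm multiplicities: `2 α_1 + α_2 + α_3 + ⋯ ≤ 2 c + 1`. -/
theorem F_stab {m : ℕ} {c c' : ℕ} (hc : c ≤ c') (d : ℕ) (α : Fin m → ℕ)
    (h : twice α ≤ 2 * c + 1) : H777.F c' d α ≤ H777.F c d α := by
  cases m with
  | zero => exact (H777.F_outer_stab hc d α (by simp)).le
  | succ m =>
    rw [twice_succ] at h
    have h1 : H777.F c' d α ≤ Module.finrank ℂ (TI c' d (m + 1) α) := by
      have := R1a c' d (m + 1) (H777.pad (c' * d) α)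
      rw [tl_pad] at this
      exact this
    refine h1.trans ((stab m d hc α h).trans ?_)
    by_cases hs : ∑ i, α i ≤ c * d
    · have h2 := lowerA d c (m + 1) (H777.pad (c * d) α) (by
        rw [H777.sum_pad, Nat.sub_add_cancel hs, mul_comm])
      rw [tl_pad] at h2
      exact h2
    · have h2 : TI c d (m + 1) α = ⊥ := by
        rw [eq_bot_iff]
        intro f hf
        exact (Submodule.mem_bot ℂ).2 (TI_zero (not_le.1 hs) hf)
      rw [h2, finrank_bot]
      exact Nat.zero_le _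

/-- **Foulkes inequalities**: `a ≤ d` and `2 α_1 + α_2 + α_3 + ⋯ ≤ 2 c + 1` suffice. -/
theorem F_main {m : ℕ} (a b c d : ℕ) (had : a ≤ d) (α : Fin m → ℕ)
    (h : twice α ≤ 2 * c + 1) : H777.F a b α ≤ H777.F c d α := by
  have hB : (a - 1) ^ 2 ≤ max (max b c) ((a - 1) ^ 2) := le_max_right _ _
  have hb : b ≤ max (max b c) ((a - 1) ^ 2) := (le_max_left b c).trans (le_max_left _ _)
  have hcB : c ≤ max (max b c) ((a - 1) ^ 2) := (le_max_right b c).trans (le_max_left _ _)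
  calc H777.F a b α ≤ H777.F a (max (max b c) ((a - 1) ^ 2)) α := H777.F_inner_mono a hb α
    _ ≤ H777.F (max (max b c) ((a - 1) ^ 2)) a α := H777.F_foulkes_canonical hB α
    _ ≤ H777.F (max (max b c) ((a - 1) ^ 2)) d α := H777.F_inner_mono _ had α
    _ ≤ H777.F c d α := F_stab hcB d α h

end Vale.Agent.P181.H168
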