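import Vale.Agent.P181.H168.Bound
import Vale.Agent.P181.TW.T3.Main
import Vale.Agent.P181.TW.T2

set_option autoImplicit false

/-!
# P181: stability in the outer exponent as soon as `2 λ_2 + λ_3 + λ_4 + ⋯ ≤ 2 a + 1`
-/

open MvPolynomial

namespace Vale.Agent.P181.H168

open Vale.Agent.P181.T4 (HW mem_HW)
open Vale.Agent.P181.SZ (TI mem_TI)
open Vale.Agent.P181.SZT0 (rc rc_inj inj_pr coeff_rc rc_mem_HW)
open Vale.Agent.P181.DG (PKT)
open Vale.Agent.P181.DG.H514 (KerT KerStmt)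
open Vale.Agent.P181.DGx.H831 (mem_PKT pderiv_rc)

/-- In `t + 1` columns, every monomial misses a column. -/
lemma misses {m x t : ℕ} {mu : Fin (m + 1) → ℕ} (h : 2 * mu 0 + ∑ i : Fin m, mu i.succ ≤ 2 * t + 1)
    {f : MvPolynomial (Fin (m + 1) × Fin (t + 1)) ℂ} (hf : f ∈ TI (t + 1) x (m + 1) mu)
    (v : Fin (m + 1) × Fin (t + 1) →₀ ℕ) (hv : coeff v f ≠ 0) :
    ∃ j : Fin (t + 1), ∑ i, v (i, j) = 0 := by
  obtain ⟨h0, h1, _, _⟩ := mem_TI.1 hf
  by_contra hcon
  push Not at hcon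
  have h2 := bound h0 h1 (bad v) v rfl hv fun j => Nat.one_le_iff_ne_zero.2 (hcon j)
  omega

lemma mem_ker {m x t : ℕ} {mu : Fin (m + 1) → ℕ}
    (h : 2 * mu 0 + ∑ i : Fin m, mu i.succ ≤ 2 * t + 1)
    {f : MvPolynomial (Fin (m + 1) × Fin (t + 1)) ℂ} (hf : f ∈ TI (t + 1) x (m + 1) mu) :
    rc (m + 1) (Sum.inr : Fin (t + 1) → Empty ⊕ Fin (t + 1)) f ∈
      KerT (m + 1) (x + 1) Empty (fun _ => 0) t mu := by
  refine ⟨TW.T2.rc_mem_zero hf, fun v hv => ?_⟩
  have hι : Function.Injective (Sum.inr : Fin (t + 1) → Empty ⊕ Fin (t + 1)) := Sum.inr_injective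
  obtain ⟨u, hu, h4, _⟩ := coeff_rc hι hv
  obtain ⟨j, hj⟩ := misses h hf u hu
  exact ⟨j, by rw [Finset.sum_congr rfl fun i _ => h4 i j]; exact hj⟩

/-- The columns. -/
def eo (t : ℕ) : Empty ⊕ Fin t → Fin t := fun o => o.elim (fun e => e.elim) id

lemma eo_inj (t : ℕ) : Function.Injective (eo t) := by
  rintro (o | o) (o' | o') h
  · exact o.elim
  · exact o.elim
  · exact o'.elim
  · exact congrArg Sum.inr h

lemma back {m x t : ℕ} {mu : Fin m → ℕ} {f : MvPolynomial (Fin m × (Empty ⊕ Fin t)) ℂ}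
    (hf : f ∈ PKT m (x + 1) Empty (fun _ => 0) t mu) : rc m (eo t) f ∈ TI t x m mu := by
  obtain ⟨h0, h1, h2, h3⟩ := mem_PKT.1 hf
  refine mem_TI.2 ⟨(rc_mem_HW (eo_inj t)).2 h0, ?_, ?_, ?_⟩
  · intro e
    have h4 : rename (fun p : Fin m × Fin t => (p.1, e p.2)) (rc m (eo t) f) = rc m (eo t)
        (rename (fun p : Fin m × (Empty ⊕ Fin t) => (p.1, Sum.map (1 : Equiv.Perm Empty) e p.2))
          f) := by
      rw [rc, rename_rename, rename_rename]
      congr 2
      funext p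
      obtain ⟨i, o | o⟩ := p
      · exact o.elim
      · rfl
    rw [h4, h2 1 e fun j => j.elim]
  · intro v hv j
    obtain ⟨u, hu, h4, _⟩ := coeff_rc (eo_inj t) hv
    have h5 := (h1 u hu).2 j
    have h6 : ∀ i, v (i, j) = u (i, Sum.inr j) := fun i => h4 i (Sum.inr j)
    rw [Finset.sum_congr rfl fun i _ => h6 i]
    omega
  · intro i
    have h4 : ∑ j : Fin t, pderiv (i, j) (rc m (eo t) f) =
        rc m (eo t) (∑ j : Fin t, pderiv (i, (Sum.inr j : Empty ⊕ Fin t)) f) := by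
      rw [map_sum]
      exact Finset.sum_congr rfl fun j _ => pderiv_rc (eo_inj t) i (Sum.inr j) f
    rw [h4, h3 i, map_zero]

/-- **Outer stability**, one step. -/
theorem stab_succ (m x t : ℕ) (mu : Fin (m + 1) → ℕ)
    (h : 2 * mu 0 + ∑ i : Fin m, mu i.succ ≤ 2 * t + 1) :
    Module.finrank ℂ (TI (t + 1) x (m + 1) mu) ≤ Module.finrank ℂ (TI t x (m + 1) mu) := by
  have : FiniteDimensional ℂ (KerT (m + 1) (x + 1) Empty (fun _ => 0) t mu) :=
    Submodule.finiteDimensional_of_le (S₂ := PKT (m + 1) (x + 1) Empty (fun _ => 0) (t + 1) mu)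
      fun _ h => h.1
  have h1 : Module.finrank ℂ (TI (t + 1) x (m + 1) mu) ≤
      Module.finrank ℂ (KerT (m + 1) (x + 1) Empty (fun _ => 0) t mu) := by
    let L : TI (t + 1) x (m + 1) mu →ₗ[ℂ] KerT (m + 1) (x + 1) Empty (fun _ => 0) t mu :=
      (rc (m + 1) (Sum.inr : Fin (t + 1) → Empty ⊕ Fin (t + 1))).toLinearMap.restrict
        fun f hf => mem_ker h hf
    refine LinearMap.finrank_le_finrank_of_injective (f := L) ?_
    intro f g hfg
    apply Subtype.ext
    apply rc_inj (m := m + 1)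
      (Sum.inr_injective : Function.Injective (Sum.inr : Fin (t + 1) → Empty ⊕ Fin (t + 1)))
    exact congrArg Subtype.val hfg
  have h2 : Module.finrank ℂ (PKT (m + 1) (x + 1) Empty (fun _ => 0) t mu) ≤
      Module.finrank ℂ (TI t x (m + 1) mu) := by
    let L : PKT (m + 1) (x + 1) Empty (fun _ => 0) t mu →ₗ[ℂ] TI t x (m + 1) mu :=
      (rc (m + 1) (eo t)).toLinearMap.restrict fun f hf => back hf
    refine LinearMap.finrank_le_finrank_of_injective (f := L) ?_
    intro f g hfg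
    apply Subtype.ext
    apply rc_inj (m := m + 1) (eo_inj t)
    exact congrArg Subtype.val hfg
  rw [DGx.H831.kerStmt (m + 1) (x + 1) Empty (fun _ => 0) t mu (by omega)] at h1
  exact h1.trans h2

/-- **Outer stability.** -/
theorem stab (m x : ℕ) {t t' : ℕ} (htt : t ≤ t') (mu : Fin (m + 1) → ℕ)
    (h : 2 * mu 0 + ∑ i : Fin m, mu i.succ ≤ 2 * t + 1) :
    Module.finrank ℂ (TI t' x (m + 1) mu) ≤ Module.finrank ℂ (TI t x (m + 1) mu) := by
  induction t', htt using Nat.le_induction with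
  | base => exact le_rfl
  | succ k hk ih => exact (stab_succ m x k mu (by omega)).trans ih

end Vale.Agent.P181.H168
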